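import Vale.Agent.P352X.R.RES.Alg.Om

/-!
# P352X, row ALG: the certificate (all coefficients multiplied by 129600)
-/

set_option linter.all false

namespace Vale.Agent.P352X.RS.Alg

def q00 : GV := (0, 0)
def q01 : GV := (0, 1)
def q02 : GV := (0, 2)
def q03 : GV := (0, 3)
def q04 : GV := (0, 4)
def q11 : GV := (1, 1)
def q12 : GV := (1, 2)
def q13 : GV := (1, 3)
def q14 : GV := (1, 4)
def q22 : GV := (2, 2)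
def q23 : GV := (2, 3)
def q24 : GV := (2, 4)
def q33 : GV := (3, 3)
def q34 : GV := (3, 4)
def q44 : GV := (4, 4)
def h0 : CV := (1, 0)
def h1 : CV := (1, 1)
def h2 : CV := (1, 2)
def h3 : CV := (1, 3)
def u0 : CV := (3, 0)
def u1 : CV := (3, 1)
def u2 : CV := (3, 2)
def u3 : CV := (3, 3)
def v0 : CV := (4, 0)
def v1 : CV := (4, 1)
def v2 : CV := (4, 2)
def v3 : CV := (4, 3)

def pX3 : Po GV := [
  (-11520,[q03,q12,q12,q34,q34]), (2880,[q03,q12,q14,q24,q33]), (-13200,[q03,q13,q13,q22,q44]),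
  (-3360,[q03,q13,q13,q24,q24]), (8640,[q03,q13,q14,q22,q34]), (17280,[q03,q13,q14,q23,q24]),
  (-18000,[q03,q14,q14,q22,q33]), (7200,[q03,q14,q14,q23,q23]), (18000,[q04,q11,q22,q33,q34]),
  (-7200,[q04,q11,q23,q23,q34]), (8640,[q04,q12,q12,q33,q34]), (-17280,[q04,q12,q13,q23,q34]),
  (47520,[q04,q13,q13,q22,q34])]

def pZ3 : Po GV := [
  (-9420,[q01,q13,q23,q33,q34]), (720,[q01,q13,q24,q33,q33]), (-13140,[q02,q13,q13,q33,q44]),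
  (4320,[q02,q13,q13,q34,q34]), (900,[q02,q13,q13,q34,q44]), (8460,[q02,q14,q14,q33,q33]),
  (-8100,[q02,q14,q14,q33,q34]), (19020,[q03,q11,q23,q33,q34]), (-5040,[q03,q11,q23,q33,q44]),
  (-20160,[q03,q11,q23,q34,q34]), (2880,[q03,q11,q24,q33,q33]), (-5760,[q03,q11,q24,q34,q34]),
  (-35640,[q03,q12,q13,q33,q44]), (-1440,[q03,q12,q13,q34,q34]), (-8640,[q03,q12,q13,q34,q44]),
  (-16740,[q03,q12,q14,q33,q33]), (-4320,[q03,q12,q14,q33,q34]), (69960,[q03,q13,q13,q23,q34]),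
  (-19200,[q03,q13,q13,q23,q44]), (18840,[q03,q13,q13,q24,q33]), (-22560,[q03,q13,q13,q24,q34]),
  (6420,[q03,q13,q13,q24,q44]), (67800,[q03,q13,q14,q23,q33]), (-109920,[q03,q13,q14,q23,q34]),
  (-2880,[q03,q13,q14,q23,q44]), (-21120,[q03,q13,q14,q24,q33]), (14640,[q03,q13,q14,q24,q34]),
  (-26760,[q03,q14,q14,q23,q33]), (-22320,[q03,q14,q14,q23,q34]), (14820,[q03,q14,q14,q24,q33]),
  (31140,[q04,q11,q23,q33,q33]), (-21600,[q04,q11,q23,q33,q34]), (7200,[q04,q11,q23,q34,q34]),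
  (-12240,[q04,q11,q24,q33,q33]), (17280,[q04,q12,q13,q33,q33]), (-37440,[q04,q12,q13,q33,q34]),
  (2880,[q04,q12,q13,q34,q34]), (95880,[q04,q13,q13,q23,q33]), (-60720,[q04,q13,q13,q23,q34]),
  (-1740,[q04,q13,q13,q23,q44]), (-19920,[q04,q13,q13,q24,q33]), (-16320,[q04,q13,q13,q24,q34]),
  (-30480,[q04,q13,q14,q23,q33]), (46320,[q04,q13,q14,q23,q34]), (11760,[q04,q13,q14,q24,q33]),
  (16260,[q04,q14,q14,q23,q33])]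

def pX2 : Po GV := [
  (-65868,[q01,q12,q23,q33,q33]), (81840,[q01,q12,q23,q33,q34]), (-2100,[q01,q12,q23,q33,q44]),
  (-11280,[q01,q12,q23,q34,q34]), (28728,[q01,q12,q24,q33,q33]), (-31320,[q01,q12,q24,q33,q34]),
  (3048,[q01,q13,q22,q33,q33]), (-984,[q01,q13,q22,q33,q34]), (510,[q01,q13,q22,q33,q44]),
  (-1440,[q01,q13,q22,q34,q34]), (88560,[q01,q13,q23,q23,q33]), (-152832,[q01,q13,q23,q23,q34]),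
  (9900,[q01,q13,q23,q23,q44]), (-79920,[q01,q13,q23,q24,q33]), (137880,[q01,q13,q23,q24,q34]),
  (-14820,[q01,q13,q24,q24,q33]), (-3654,[q01,q14,q22,q33,q33]), (2520,[q01,q14,q22,q33,q34]),
  (77232,[q01,q14,q23,q23,q33]), (-37680,[q01,q14,q23,q23,q34]), (-28320,[q01,q14,q23,q24,q33]),
  (-40674,[q02,q11,q23,q33,q33]), (61308,[q02,q11,q23,q33,q34]), (-18960,[q02,q11,q23,q34,q34]),
  (7566,[q02,q11,q24,q33,q33]), (-9240,[q02,q11,q24,q33,q34]), (-3984,[q02,q12,q13,q33,q33]),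
  (10488,[q02,q12,q13,q33,q34]), (-2400,[q02,q12,q13,q34,q34]), (-8784,[q02,q12,q14,q33,q33]),
  (4680,[q02,q12,q14,q33,q34]), (-60692,[q02,q13,q13,q23,q33]), (61416,[q02,q13,q13,q23,q34]),
  (-840,[q02,q13,q13,q23,q44]), (32204,[q02,q13,q13,q24,q33]), (-33000,[q02,q13,q13,q24,q34]),
  (4652,[q02,q13,q14,q23,q33]), (-6000,[q02,q13,q14,q23,q34]), (-5900,[q02,q13,q14,q24,q33]),
  (8160,[q02,q14,q14,q23,q33]), (-4029,[q03,q11,q22,q33,q33]), (11556,[q03,q11,q22,q33,q34]),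
  (510,[q03,q11,q22,q33,q44]), (-7200,[q03,q11,q22,q34,q34]), (119568,[q03,q11,q23,q23,q33]),
  (-168480,[q03,q11,q23,q23,q34]), (9900,[q03,q11,q23,q23,q44]), (-77604,[q03,q11,q23,q24,q33]),
  (126360,[q03,q11,q23,q24,q34]), (-16980,[q03,q11,q24,q24,q33]), (1722,[q03,q12,q12,q33,q33]),
  (-5928,[q03,q12,q12,q33,q34]), (-2100,[q03,q12,q12,q33,q44]), (8520,[q03,q12,q12,q34,q34]),
  (67348,[q03,q12,q13,q23,q33]), (-119016,[q03,q12,q13,q23,q34]), (4080,[q03,q12,q13,q23,q44]),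
  (-45556,[q03,q12,q13,q24,q33]), (72600,[q03,q12,q13,q24,q34]), (53928,[q03,q12,q14,q23,q33]),
  (-17280,[q03,q12,q14,q23,q34]), (-27120,[q03,q12,q14,q24,q33]), (8116,[q03,q13,q13,q22,q33]),
  (-7368,[q03,q13,q13,q22,q34]), (-5760,[q03,q13,q13,q22,q44]), (34680,[q03,q13,q13,q23,q23]),
  (-1488,[q03,q13,q13,q23,q24]), (-24480,[q03,q13,q13,q24,q24]), (-16420,[q03,q13,q14,q22,q33]),
  (25440,[q03,q13,q14,q22,q34]), (-103704,[q03,q13,q14,q23,q23]), (107400,[q03,q13,q14,q23,q24]),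
  (-660,[q03,q14,q14,q22,q33]), (-21480,[q03,q14,q14,q23,q23]), (-8817,[q04,q11,q22,q33,q33]),
  (7980,[q04,q11,q22,q33,q34]), (54036,[q04,q11,q23,q23,q33]), (-44640,[q04,q11,q23,q23,q34]),
  (-2160,[q04,q11,q23,q24,q33]), (-10854,[q04,q12,q12,q33,q33]), (8640,[q04,q12,q12,q33,q34]),
  (52196,[q04,q12,q13,q23,q33]), (-68880,[q04,q12,q13,q23,q34]), (7420,[q04,q12,q13,q24,q33]),
  (20280,[q04,q12,q14,q23,q33]), (-9508,[q04,q13,q13,q22,q33]), (11160,[q04,q13,q13,q22,q34]),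
  (50952,[q04,q13,q13,q23,q23]), (-24120,[q04,q13,q13,q23,q24]), (-5000,[q04,q13,q14,q22,q33]),
  (-17760,[q04,q13,q14,q23,q23])]

def pZ2 : Po GV := [
  (360,[q01,q22,q33,q33,q33]), (-13275,[q01,q23,q23,q33,q33]), (26064,[q01,q23,q23,q33,q34]),
  (-15660,[q01,q23,q23,q34,q34]), (-9639,[q01,q23,q24,q33,q33]), (540,[q01,q24,q24,q33,q33]),
  (4725,[q02,q12,q33,q33,q33]), (-11655,[q02,q12,q33,q33,q34]), (10440,[q02,q12,q33,q34,q34]),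
  (-59870,[q02,q13,q23,q33,q33]), (82908,[q02,q13,q23,q33,q34]), (-26160,[q02,q13,q23,q34,q34]),
  (21911,[q02,q13,q24,q33,q33]), (-9240,[q02,q13,q24,q33,q34]), (-11944,[q02,q14,q23,q33,q33]),
  (-2105,[q02,q14,q24,q33,q33]), (-19370,[q03,q12,q23,q33,q33]), (29712,[q03,q12,q23,q33,q34]),
  (-2100,[q03,q12,q23,q33,q44]), (20040,[q03,q12,q23,q34,q34]), (37832,[q03,q12,q24,q33,q33]),
  (-31320,[q03,q12,q24,q33,q34]), (-4940,[q03,q13,q22,q33,q33]), (9036,[q03,q13,q22,q33,q34]),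
  (510,[q03,q13,q22,q33,q44]), (-1440,[q03,q13,q22,q34,q34]), (43260,[q03,q13,q23,q23,q33]),
  (-121800,[q03,q13,q23,q23,q34]), (9900,[q03,q13,q23,q23,q44]), (-39204,[q03,q13,q23,q24,q33]),
  (137880,[q03,q13,q23,q24,q34]), (-16980,[q03,q13,q24,q24,q33]), (-1969,[q03,q14,q22,q33,q33]),
  (2520,[q03,q14,q22,q33,q34]), (57288,[q03,q14,q23,q23,q33]), (-6360,[q03,q14,q23,q23,q34]),
  (-28320,[q03,q14,q23,q24,q33]), (-10309,[q04,q12,q23,q33,q33]), (-545,[q04,q12,q24,q33,q33]),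
  (5108,[q04,q13,q22,q33,q33]), (-10020,[q04,q13,q22,q33,q34]), (81756,[q04,q13,q23,q23,q33]),
  (-51840,[q04,q13,q23,q23,q34]), (-2160,[q04,q13,q23,q24,q33]), (-1685,[q04,q14,q22,q33,q33]),
  (-6120,[q04,q14,q23,q23,q33])]

def pP : Po GV := [
  (900,[q11,q33,q34]), (1800,[q11,q33,q44]), (-3600,[q11,q34,q34]), (900,[q11,q34,q44]),
  (-5400,[q13,q13,q34]), (-3600,[q13,q13,q44]), (1800,[q13,q14,q33]), (14400,[q13,q14,q34]),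
  (1800,[q13,q14,q44]), (-3600,[q14,q14,q33]), (-5400,[q14,q14,q34])]

def pT : Po GV := [
  (-2880,[q00,q11,q22,q33,q33]), (900,[q00,q11,q22,q33,q34]), (1800,[q00,q11,q22,q33,q44]),
  (2160,[q00,q11,q22,q34,q34]), (900,[q00,q11,q22,q34,q44]), (-19020,[q00,q11,q23,q23,q33]),
  (40320,[q00,q11,q23,q23,q34]), (10080,[q00,q11,q23,q24,q33]), (11520,[q00,q11,q23,q24,q34]),
  (16740,[q00,q12,q12,q33,q33]), (4320,[q00,q12,q12,q33,q34]), (11520,[q00,q12,q12,q34,q34]),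
  (-67800,[q00,q12,q13,q23,q33]), (112800,[q00,q12,q13,q23,q34]), (11520,[q00,q12,q13,q23,q44]),
  (92400,[q00,q12,q13,q24,q33]), (2640,[q00,q12,q13,q24,q34]), (57840,[q00,q12,q14,q23,q33]),
  (44640,[q00,q12,q14,q23,q34]), (-32520,[q00,q12,q14,q24,q33]), (-18840,[q00,q13,q13,q22,q33]),
  (17160,[q00,q13,q13,q22,q34]), (3180,[q00,q13,q13,q22,q44]), (-69960,[q00,q13,q13,q23,q23]),
  (60960,[q00,q13,q13,q23,q24]), (-9480,[q00,q13,q13,q24,q24]), (22920,[q00,q13,q14,q22,q33]),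
  (-8880,[q00,q13,q14,q22,q34]), (1800,[q00,q13,q14,q22,q44]), (109920,[q00,q13,q14,q23,q23]),
  (-26160,[q00,q13,q14,q23,q24]), (-420,[q00,q14,q14,q22,q33]), (-5400,[q00,q14,q14,q22,q34]),
  (15120,[q00,q14,q14,q23,q23]), (-720,[q01,q01,q22,q33,q33]), (9420,[q01,q01,q23,q23,q33]),
  (-17280,[q01,q02,q12,q33,q33]), (37440,[q01,q02,q12,q33,q34]), (-2880,[q01,q02,q12,q34,q34]),
  (-172920,[q01,q02,q13,q23,q33]), (104160,[q01,q02,q13,q23,q34]), (1680,[q01,q02,q13,q23,q44]),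
  (92400,[q01,q02,q13,q24,q33]), (29040,[q01,q02,q13,q24,q34]), (30480,[q01,q02,q14,q23,q33]),
  (-46320,[q01,q02,q14,q23,q34]), (-11760,[q01,q02,q14,q24,q33]), (-67800,[q01,q03,q12,q23,q33]),
  (112800,[q01,q03,q12,q23,q34]), (11520,[q01,q03,q12,q23,q44]), (92400,[q01,q03,q12,q24,q33]),
  (2640,[q01,q03,q12,q24,q34]), (-40560,[q01,q03,q13,q22,q33]), (45120,[q01,q03,q13,q22,q34]),
  (13560,[q01,q03,q13,q22,q44]), (-121080,[q01,q03,q13,q23,q23]), (121920,[q01,q03,q13,q23,q24]),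
  (-18960,[q01,q03,q13,q24,q24]), (21120,[q01,q03,q14,q22,q33]), (-23280,[q01,q03,q14,q22,q34]),
  (109920,[q01,q03,q14,q23,q23]), (-26160,[q01,q03,q14,q23,q24]), (67920,[q01,q04,q12,q23,q33]),
  (-34800,[q01,q04,q12,q23,q34]), (-11760,[q01,q04,q12,q24,q33]), (39840,[q01,q04,q13,q22,q33]),
  (-62400,[q01,q04,q13,q22,q34]), (121440,[q01,q04,q13,q23,q23]), (39600,[q01,q04,q13,q23,q24]),
  (-11760,[q01,q04,q14,q22,q33]), (-46320,[q01,q04,q14,q23,q23]), (-31140,[q02,q02,q11,q33,q33]),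
  (21600,[q02,q02,q11,q33,q34]), (-7200,[q02,q02,q11,q34,q34]), (-95880,[q02,q02,q13,q13,q33]),
  (52080,[q02,q02,q13,q13,q34]), (840,[q02,q02,q13,q13,q44]), (30480,[q02,q02,q13,q14,q33]),
  (-46320,[q02,q02,q13,q14,q34]), (-8160,[q02,q02,q14,q14,q33]), (-162600,[q02,q03,q11,q23,q33]),
  (123840,[q02,q03,q11,q23,q34]), (59040,[q02,q03,q11,q24,q33]), (11520,[q02,q03,q11,q24,q34]),
  (-136920,[q02,q03,q12,q13,q33]), (187680,[q02,q03,q12,q13,q34]), (11520,[q02,q03,q12,q13,q44]),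
  (-9840,[q02,q03,q12,q14,q33]), (77040,[q02,q03,q12,q14,q34]), (-331680,[q02,q03,q13,q13,q23]),
  (153360,[q02,q03,q13,q13,q24]), (280800,[q02,q03,q13,q14,q23]), (-49680,[q02,q03,q13,q14,q24]),
  (13920,[q02,q03,q14,q14,q23]), (64800,[q02,q04,q11,q23,q33]), (-28800,[q02,q04,q11,q23,q34]),
  (105360,[q02,q04,q12,q13,q33]), (-40560,[q02,q04,q12,q13,q34]), (-16320,[q02,q04,q12,q14,q33]),
  (173520,[q02,q04,q13,q13,q23]), (34320,[q02,q04,q13,q13,q24]), (-138960,[q02,q04,q13,q14,q23]),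
  (-11520,[q03,q03,q11,q22,q33]), (-38040,[q03,q03,q11,q23,q23]), (20160,[q03,q03,q11,q23,q24]),
  (66960,[q03,q03,q12,q12,q33]), (8640,[q03,q03,q12,q12,q34]), (-135600,[q03,q03,q12,q13,q23]),
  (184800,[q03,q03,q12,q13,q24]), (115680,[q03,q03,q12,q14,q23]), (-65040,[q03,q03,q12,q14,q24]),
  (-37680,[q03,q03,q13,q13,q22]), (42240,[q03,q03,q13,q14,q22]), (6360,[q03,q03,q14,q14,q22]),
  (48960,[q03,q04,q11,q22,q33]), (-24480,[q03,q04,q11,q22,q34]), (83520,[q03,q04,q11,q23,q23]),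
  (11520,[q03,q04,q11,q23,q24]), (4320,[q03,q04,q12,q12,q33]), (5760,[q03,q04,q12,q12,q34]),
  (248640,[q03,q04,q12,q13,q23]), (-20880,[q03,q04,q12,q13,q24]), (-20400,[q03,q04,q12,q14,q23]),
  (62400,[q03,q04,q13,q13,q22]), (-46800,[q03,q04,q13,q14,q22]), (-18000,[q04,q04,q11,q22,q33]),
  (-7200,[q04,q04,q11,q23,q23]), (-8640,[q04,q04,q12,q12,q33]), (-34800,[q04,q04,q12,q13,q23]),
  (-31200,[q04,q04,q13,q13,q22])]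

def pD : Po GV := [
  (1,[q00,q11,q22,q33,q44]), (-1,[q00,q11,q22,q34,q34]), (-1,[q00,q11,q23,q23,q44]),
  (2,[q00,q11,q23,q24,q34]), (-1,[q00,q11,q24,q24,q33]), (-1,[q00,q12,q12,q33,q44]),
  (1,[q00,q12,q12,q34,q34]), (2,[q00,q12,q13,q23,q44]), (-2,[q00,q12,q13,q24,q34]),
  (-2,[q00,q12,q14,q23,q34]), (2,[q00,q12,q14,q24,q33]), (-1,[q00,q13,q13,q22,q44]),
  (1,[q00,q13,q13,q24,q24]), (2,[q00,q13,q14,q22,q34]), (-2,[q00,q13,q14,q23,q24]),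
  (-1,[q00,q14,q14,q22,q33]), (1,[q00,q14,q14,q23,q23]), (-1,[q01,q01,q22,q33,q44]),
  (1,[q01,q01,q22,q34,q34]), (1,[q01,q01,q23,q23,q44]), (-2,[q01,q01,q23,q24,q34]),
  (1,[q01,q01,q24,q24,q33]), (2,[q01,q02,q12,q33,q44]), (-2,[q01,q02,q12,q34,q34]),
  (-2,[q01,q02,q13,q23,q44]), (2,[q01,q02,q13,q24,q34]), (2,[q01,q02,q14,q23,q34]),
  (-2,[q01,q02,q14,q24,q33]), (-2,[q01,q03,q12,q23,q44]), (2,[q01,q03,q12,q24,q34]),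
  (2,[q01,q03,q13,q22,q44]), (-2,[q01,q03,q13,q24,q24]), (-2,[q01,q03,q14,q22,q34]),
  (2,[q01,q03,q14,q23,q24]), (2,[q01,q04,q12,q23,q34]), (-2,[q01,q04,q12,q24,q33]),
  (-2,[q01,q04,q13,q22,q34]), (2,[q01,q04,q13,q23,q24]), (2,[q01,q04,q14,q22,q33]),
  (-2,[q01,q04,q14,q23,q23]), (-1,[q02,q02,q11,q33,q44]), (1,[q02,q02,q11,q34,q34]),
  (1,[q02,q02,q13,q13,q44]), (-2,[q02,q02,q13,q14,q34]), (1,[q02,q02,q14,q14,q33]),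
  (2,[q02,q03,q11,q23,q44]), (-2,[q02,q03,q11,q24,q34]), (-2,[q02,q03,q12,q13,q44]),
  (2,[q02,q03,q12,q14,q34]), (2,[q02,q03,q13,q14,q24]), (-2,[q02,q03,q14,q14,q23]),
  (-2,[q02,q04,q11,q23,q34]), (2,[q02,q04,q11,q24,q33]), (2,[q02,q04,q12,q13,q34]),
  (-2,[q02,q04,q12,q14,q33]), (-2,[q02,q04,q13,q13,q24]), (2,[q02,q04,q13,q14,q23]),
  (-1,[q03,q03,q11,q22,q44]), (1,[q03,q03,q11,q24,q24]), (1,[q03,q03,q12,q12,q44]),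
  (-2,[q03,q03,q12,q14,q24]), (1,[q03,q03,q14,q14,q22]), (2,[q03,q04,q11,q22,q34]),
  (-2,[q03,q04,q11,q23,q24]), (-2,[q03,q04,q12,q12,q34]), (2,[q03,q04,q12,q13,q24]),
  (2,[q03,q04,q12,q14,q23]), (-2,[q03,q04,q13,q14,q22]), (-1,[q04,q04,q11,q22,q33]),
  (1,[q04,q04,q11,q23,q23]), (1,[q04,q04,q12,q12,q33]), (-2,[q04,q04,q12,q13,q23]),
  (1,[q04,q04,q13,q13,q22])]

def pA : Po CV := [
  (41100,[h0,h0,u1,u1,u1,v2]), (900,[h0,h0,u1,u1,u2,v1]), (-43200,[h0,h0,u1,u1,v1,v2]),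
  (-79200,[h0,h0,u1,u2,v1,v1]), (900,[h0,h0,u1,v1,v1,v2]), (41100,[h0,h0,u2,v1,v1,v1]),
  (-5400,[h0,h1,u0,u1,u1,v2]), (3600,[h0,h1,u0,u1,u2,v1]), (1800,[h0,h1,u0,v1,v1,v2]),
  (1800,[h0,h1,u1,u1,u2,v0]), (-72000,[h0,h1,u1,u2,u3,v3]), (20400,[h0,h1,u1,u2,v3,v3]),
  (-32400,[h0,h1,u1,u3,u3,v2]), (129600,[h0,h1,u1,u3,v2,v3]), (3600,[h0,h1,u1,v0,v1,v2]),
  (-9000,[h0,h1,u1,v2,v2,v2]), (52200,[h0,h1,u1,v2,v3,v3]), (-9000,[h0,h1,u2,u2,u2,v1]),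
  (52200,[h0,h1,u2,u3,u3,v1]), (-115200,[h0,h1,u2,u3,v1,v3]), (-5400,[h0,h1,u2,v0,v1,v1]),
  (-32400,[h0,h1,u2,v1,v3,v3]), (8400,[h0,h1,u3,u3,v1,v2]), (-72000,[h0,h1,u3,v1,v2,v3]),
  (-5400,[h0,h2,u0,u1,u1,v1]), (-25800,[h0,h2,u0,v1,v1,v1]), (-25800,[h0,h2,u1,u1,u1,v0]),
  (41400,[h0,h2,u1,u1,u3,v3]), (37800,[h0,h2,u1,u1,v2,v2]), (-23400,[h0,h2,u1,u1,v3,v3]),
  (-129600,[h0,h2,u1,u3,u3,v1]), (-352800,[h0,h2,u1,u3,v1,v3]), (-5400,[h0,h2,u1,v0,v1,v1]),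
  (-129600,[h0,h2,u1,v1,v3,v3]), (-81000,[h0,h2,u2,u2,v1,v1]), (-5400,[h0,h2,u3,u3,v1,v1]),
  (41400,[h0,h2,u3,v1,v1,v3]), (15300,[h0,h3,u1,u1,u2,v3]), (3600,[h0,h3,u1,u1,u3,v2]),
  (147600,[h0,h3,u1,u1,v2,v3]), (3600,[h0,h3,u1,u2,u3,v1]), (-309600,[h0,h3,u1,u2,v1,v3]),
  (-7200,[h0,h3,u1,v1,v2,v3]), (-7200,[h0,h3,u2,u3,v1,v1]), (9000,[h0,h3,u2,v1,v1,v3]),
  (12600,[h0,h3,u3,v1,v1,v2]), (1800,[h1,h1,u0,u0,u1,v2]), (-5400,[h1,h1,u0,u0,u2,v1]),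
  (32400,[h1,h1,u0,u0,v1,v2]), (-2700,[h1,h1,u0,u2,u2,v2]), (-43200,[h1,h1,u0,u2,u3,v3]),
  (-54000,[h1,h1,u0,u2,v2,v2]), (36000,[h1,h1,u0,u2,v3,v3]), (23400,[h1,h1,u0,u3,u3,v2]),
  (-43200,[h1,h1,u0,u3,v2,v3]), (-900,[h1,h1,u0,v2,v2,v2]), (-35100,[h1,h1,u0,v2,v3,v3]),
  (14400,[h1,h1,u1,u2,v0,v0]), (-5400,[h1,h1,u1,v0,v0,v2]), (-900,[h1,h1,u2,u2,u2,v0]),
  (64800,[h1,h1,u2,u2,v0,v2]), (-35100,[h1,h1,u2,u3,u3,v0]), (57600,[h1,h1,u2,u3,v0,v3]),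
  (1800,[h1,h1,u2,v0,v0,v1]), (-5400,[h1,h1,u2,v0,v2,v2]), (23400,[h1,h1,u2,v0,v3,v3]),
  (18000,[h1,h1,u3,u3,v0,v2]), (-43200,[h1,h1,u3,v0,v2,v3]), (-25200,[h1,h2,u0,u0,v1,v1]),
  (-3600,[h1,h2,u0,u1,u1,v0]), (10800,[h1,h2,u0,u1,u3,v3]), (-20400,[h1,h2,u0,u1,v3,v3]),
  (-48600,[h1,h2,u0,u3,u3,v1]), (72000,[h1,h2,u0,u3,v1,v3]), (-3600,[h1,h2,u0,v0,v1,v1]),
  (68400,[h1,h2,u0,v1,v3,v3]), (-7200,[h1,h2,u1,u1,v0,v0]), (68400,[h1,h2,u1,u3,u3,v0]),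
  (-129600,[h1,h2,u1,u3,v0,v3]), (-48600,[h1,h2,u1,v0,v3,v3]), (43200,[h1,h2,u2,u2,u3,v3]),
  (5400,[h1,h2,u2,u2,v2,v2]), (-22200,[h1,h2,u2,u2,v3,v3]), (-1800,[h1,h2,u3,u3,u3,v3]),
  (-8400,[h1,h2,u3,u3,v0,v1]), (-10200,[h1,h2,u3,u3,v2,v2]), (-1800,[h1,h2,u3,u3,v3,v3]),
  (10800,[h1,h2,u3,v0,v1,v3]), (43200,[h1,h2,u3,v2,v2,v3]), (-1800,[h1,h2,u3,v3,v3,v3]),
  (3600,[h1,h3,u0,u1,u2,v3]), (79200,[h1,h3,u0,u1,u3,v2]), (-187200,[h1,h3,u0,u1,v2,v3]),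
  (-32400,[h1,h3,u0,u2,u3,v1]), (100800,[h1,h3,u0,u2,v1,v3]), (-14400,[h1,h3,u0,u3,v1,v2]),
  (-75600,[h1,h3,u0,v1,v2,v3]), (-86400,[h1,h3,u1,u2,u3,v0]), (187200,[h1,h3,u1,u2,v0,v3]),
  (57600,[h1,h3,u1,u3,v0,v2]), (-32400,[h1,h3,u1,v0,v2,v3]), (21600,[h1,h3,u2,u2,u2,v3]),
  (-18000,[h1,h3,u2,u3,u3,v3]), (14400,[h1,h3,u2,u3,v0,v1]), (-18000,[h1,h3,u2,u3,v3,v3]),
  (68400,[h1,h3,u2,v0,v1,v3]), (-1800,[h1,h3,u2,v3,v3,v3]), (-1800,[h1,h3,u3,u3,u3,v2]),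
  (-18000,[h1,h3,u3,u3,v2,v3]), (3600,[h1,h3,u3,v0,v1,v2]), (16200,[h1,h3,u3,v2,v2,v2]),
  (-18000,[h1,h3,u3,v2,v3,v3]), (14850,[h2,h2,u0,u1,u1,v2]), (54000,[h2,h2,u0,u2,v1,v1]),
  (32400,[h2,h2,u0,v1,v1,v2]), (32400,[h2,h2,u1,u1,u2,v0]), (-64800,[h2,h2,u1,u1,v0,v2]),
  (16800,[h2,h2,u1,u2,v3,v3]), (-2700,[h2,h2,u1,v2,v2,v2]), (37800,[h2,h2,u1,v2,v3,v3]),
  (-2700,[h2,h2,u2,u2,u2,v1]), (37800,[h2,h2,u2,u3,u3,v1]), (14850,[h2,h2,u2,v0,v1,v1]),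
  (4800,[h2,h2,u3,u3,v1,v2]), (28800,[h2,h3,u0,u1,u1,v3]), (108000,[h2,h3,u0,u1,u3,v1]),
  (201600,[h2,h3,u0,u1,v1,v3]), (43200,[h2,h3,u0,v1,v1,v3]), (48600,[h2,h3,u1,u1,u3,v0]),
  (-100800,[h2,h3,u1,u1,v0,v3]), (-32400,[h2,h3,u1,u2,u2,v3]), (9000,[h2,h3,u1,u3,u3,v3]),
  (25200,[h2,h3,u1,u3,v3,v3]), (118800,[h2,h3,u1,v0,v1,v3]), (-37800,[h2,h3,u1,v2,v2,v3]),
  (3600,[h2,h3,u1,v3,v3,v3]), (-32400,[h2,h3,u2,u2,u3,v1]), (3600,[h2,h3,u3,u3,u3,v1]),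
  (25200,[h2,h3,u3,u3,v1,v3]), (23400,[h2,h3,u3,v0,v1,v1]), (-27000,[h2,h3,u3,v1,v2,v2]),
  (9000,[h2,h3,u3,v1,v3,v3]), (3600,[h3,h3,u0,u1,u1,v2]), (1800,[h3,h3,u0,u1,u2,v1]),
  (-4800,[h3,h3,u0,u1,v1,v2]), (10800,[h3,h3,u0,u2,v1,v1]), (900,[h3,h3,u0,v1,v1,v2]),
  (2250,[h3,h3,u1,u1,u2,v0]), (-3600,[h3,h3,u1,u1,v0,v2]), (-5400,[h3,h3,u1,u2,u2,v2]),
  (2700,[h3,h3,u1,u2,u3,v3]), (4800,[h3,h3,u1,u2,v0,v1]), (4800,[h3,h3,u1,u2,v2,v2]),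
  (3600,[h3,h3,u1,u2,v3,v3]), (4500,[h3,h3,u1,u3,u3,v2]), (-7200,[h3,h3,u1,u3,v2,v3]),
  (1800,[h3,h3,u1,v0,v1,v2]), (-3600,[h3,h3,u1,v2,v2,v2]), (12600,[h3,h3,u1,v2,v3,v3]),
  (-900,[h3,h3,u2,u2,u2,v1]), (-4800,[h3,h3,u2,u2,v1,v2]), (12600,[h3,h3,u2,u3,u3,v1]),
  (14400,[h3,h3,u2,u3,v1,v3]), (900,[h3,h3,u2,v0,v1,v1]), (-2700,[h3,h3,u2,v1,v2,v2]),
  (4500,[h3,h3,u2,v1,v3,v3]), (3600,[h3,h3,u3,u3,v1,v2]), (-5400,[h3,h3,u3,v1,v2,v3])]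

def pB : Po CV := [
  (5700,[h0,h0,u1,u1,u1,v3]), (65700,[h0,h0,u1,u1,u3,v1]), (36000,[h0,h0,u1,u1,v1,v3]),
  (18000,[h0,h0,u1,u3,v1,v1]), (65700,[h0,h0,u1,v1,v1,v3]), (5700,[h0,h0,u3,v1,v1,v1]),
  (27000,[h0,h1,u0,u1,u1,v3]), (21600,[h0,h1,u0,u3,v1,v1]), (-16200,[h0,h1,u0,v1,v1,v3]),
  (-16200,[h0,h1,u1,u1,u3,v0]), (3600,[h0,h1,u1,u3,v2,v2]), (27000,[h0,h1,u1,v2,v2,v3]),
  (27000,[h0,h1,u2,u2,u3,v1]), (3600,[h0,h1,u2,u2,v1,v3]), (27000,[h0,h1,u3,v0,v1,v1]),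
  (80100,[h0,h2,u1,u1,u3,v2]), (104400,[h0,h2,u1,u1,v2,v3]), (226800,[h0,h2,u2,u3,v1,v1]),
  (80100,[h0,h2,u2,v1,v1,v3]), (-59400,[h0,h3,u0,u1,u1,v1]), (54000,[h0,h3,u0,u1,v1,v1]),
  (-15600,[h0,h3,u0,v1,v1,v1]), (-15600,[h0,h3,u1,u1,u1,v0]), (1800,[h0,h3,u1,u1,v2,v2]),
  (-16200,[h0,h3,u1,u1,v3,v3]), (-59400,[h0,h3,u1,v0,v1,v1]), (156600,[h0,h3,u2,u2,v1,v1]),
  (-16200,[h0,h3,u3,u3,v1,v1]), (10800,[h1,h1,u0,u0,u3,v1]), (-39600,[h1,h1,u0,u0,v1,v3]),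
  (-35100,[h1,h1,u0,u2,u2,v3]), (3600,[h1,h1,u0,u2,u3,v2]), (36000,[h1,h1,u0,u2,v2,v3]),
  (13500,[h1,h1,u0,u3,u3,v3]), (18000,[h1,h1,u0,u3,v2,v2]), (36900,[h1,h1,u0,v2,v2,v3]),
  (-21600,[h1,h1,u1,u3,v0,v0]), (10800,[h1,h1,u1,v0,v0,v3]), (42300,[h1,h1,u2,u2,u3,v0]),
  (-82800,[h1,h1,u2,u2,v0,v3]), (-43200,[h1,h1,u2,u3,v0,v2]), (9000,[h1,h1,u2,v0,v2,v3]),
  (-27000,[h1,h1,u3,v0,v2,v2]), (13500,[h1,h1,u3,v0,v3,v3]), (14400,[h1,h2,u2,u2,u3,v2]),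
  (-147600,[h1,h2,u2,u2,v2,v3]), (90000,[h1,h2,u2,u3,v2,v2]), (19800,[h1,h2,u2,v2,v2,v3]),
  (-3600,[h1,h3,u0,u0,v1,v1]), (-3600,[h1,h3,u0,u1,v2,v2]), (7200,[h1,h3,u2,u2,u2,v2]),
  (-3600,[h1,h3,u2,u2,v0,v1]), (-1800,[h1,h3,u2,u2,v2,v2]), (-5400,[h1,h3,u2,u2,v3,v3]),
  (-21600,[h1,h3,u2,u3,u3,v2]), (7200,[h1,h3,u2,v2,v2,v2]), (-21600,[h1,h3,u2,v2,v3,v3]),
  (-5400,[h1,h3,u3,u3,v2,v2]), (5400,[h1,h3,u3,u3,v3,v3]), (-7200,[h2,h2,u0,u1,u1,v3]),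
  (1800,[h2,h2,u0,u1,u3,v1]), (-32400,[h2,h2,u0,u3,v1,v1]), (-34650,[h2,h2,u0,v1,v1,v3]),
  (-34650,[h2,h2,u1,u1,u3,v0]), (68400,[h2,h2,u1,u1,v0,v3]), (-60300,[h2,h2,u1,u2,u2,v3]),
  (-35100,[h2,h2,u1,u2,u3,v2]), (122400,[h2,h2,u1,u2,v2,v3]), (3600,[h2,h2,u1,u3,v2,v2]),
  (1800,[h2,h2,u1,v0,v1,v3]), (12600,[h2,h2,u1,v2,v2,v3]), (2700,[h2,h2,u1,v3,v3,v3]),
  (12600,[h2,h2,u2,u2,u3,v1]), (3600,[h2,h2,u2,u2,v1,v3]), (-115200,[h2,h2,u2,u3,v1,v2]),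
  (-35100,[h2,h2,u2,v1,v2,v3]), (2700,[h2,h2,u3,u3,u3,v1]), (-7200,[h2,h2,u3,v0,v1,v1]),
  (-60300,[h2,h2,u3,v1,v2,v2]), (-95400,[h2,h3,u0,u1,u1,v2]), (-158400,[h2,h3,u0,u2,v1,v1]),
  (-36000,[h2,h3,u1,u1,v0,v2]), (9000,[h2,h3,u1,u2,u2,v2]), (-82800,[h2,h3,u1,u2,v2,v2]),
  (12600,[h2,h3,u1,v2,v2,v2]), (12600,[h2,h3,u2,u2,u2,v1]), (154800,[h2,h3,u2,u2,v1,v2]),
  (-95400,[h2,h3,u2,v0,v1,v1]), (9000,[h2,h3,u2,v1,v2,v2]), (-4050,[h3,h3,u0,u1,u1,v3]),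
  (-10800,[h3,h3,u0,u3,v1,v1]), (8100,[h3,h3,u1,v2,v2,v3]), (-2700,[h3,h3,u1,v3,v3,v3]),
  (-2700,[h3,h3,u3,u3,u3,v1])]

theorem ck_deg : dg wG 5 pX3 = true ∧ dg wG 6 pZ3 = true ∧ dg wG 5 pX2 = true ∧
    dg wG 6 pZ2 = true ∧ dg (fun a : CV => w5 a.1) 4 pA = true ∧
    dg (fun a : CV => w5 a.1) 4 pB = true ∧ dg (fun a : CV => w5 a.1) 4 s0 = true := by
  decide +kernel

theorem ck_H : zt prC (bd (der tH) s0) = true := by decide +kernel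

theorem ck_om : zt prC (ap (sc 129600 s0) (sc (-1) (ap (bd (der tA) pA) (ap (bd (der tB) pB)
    (bd (sub trG) pP))))) = true := by decide +kernel

theorem ck_eq : zt prG (ap (ap pX3 (dh 2 4 pZ3)) (ap (sc (-1) pX2)
    (ap (dh 1 3 pZ2) (dh 1 4 pZ2)))) = true := by decide +kernel

theorem ck_b3 : zt prG (dd 4 4 pX3) = true := by decide +kernel

theorem ck_d3 : zt prG (dd 4 2 (dd 4 2 pX3)) = true := by decide +kernel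

theorem ck_b2 : zt prG (ap (ap (dd 3 3 pX2) (dd 3 4 pX2)) (ap (dd 4 3 pX2) (dd 4 4 pX2))) =
    true := by decide +kernel

theorem ck_d2 : zt prG (ap (dd 3 1 (ap (dd 3 1 pX2) (dd 4 1 pX2)))
    (dd 4 1 (ap (dd 3 1 pX2) (dd 4 1 pX2)))) = true := by decide +kernel

theorem ck_T : zt prG (ap (cm (0, 0) (cm (2, 2) pP)) (sc (-1)
    (ap (dh 0 3 (ap pX3 (dh 2 4 pZ3))) pT))) = true := by decide +kernel

theorem ck_sy : zt prG (ap (sy pT) (sc (-2880) pD)) = true := by decide +kernel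

end Vale.Agent.P352X.RS.Alg
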