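import Mathlib

/-!
# P352X, row ALG: a small reflection engine for polynomial identities
-/

set_option linter.all false

namespace Vale.Agent.P352X.RS.Alg

noncomputable section

abbrev Po (α : Type) := List (ℤ × List α)

variable {α β R : Type} [CommRing R]

def mo (g : α → R) (m : List α) : R := (m.map g).prod
def ev (g : α → R) (p : Po α) : R := (p.map fun t => (t.1 : R) * mo g t.2).sum

@[simp] theorem mo_nil (g : α → R) : mo g [] = 1 := rfl
@[simp] theorem mo_cons (g : α → R) (a : α) (m : List α) : mo g (a :: m) = g a * mo g m := by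
  simp [mo]
@[simp] theorem ev_nil (g : α → R) : ev g [] = 0 := rfl
@[simp] theorem ev_cons (g : α → R) (t : ℤ × List α) (p : Po α) :
    ev g (t :: p) = (t.1 : R) * mo g t.2 + ev g p := by simp [ev]

def ap {γ : Type} (l k : List γ) : List γ := List.rec k (fun a _ ih => a :: ih) l
def mp {γ δ : Type} (f : γ → δ) (l : List γ) : List δ := List.rec [] (fun a _ ih => f a :: ih) l

theorem ap_eq {γ : Type} (l k : List γ) : ap l k = l ++ k := by
  induction l with
  | nil => rfl
  | cons a l ih => exact congrArg (a :: ·) ih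

theorem mo_ap (g : α → R) (m m' : List α) : mo g (ap m m') = mo g m * mo g m' := by
  simp [ap_eq, mo]

theorem ev_ap (g : α → R) (p q : Po α) : ev g (ap p q) = ev g p + ev g q := by
  simp [ap_eq, ev]

/-- product with a term -/
def sm (c : ℤ) (m : List α) (p : Po α) : Po α := mp (fun t => (Int.mul c t.1, ap m t.2)) p
/-- product with an integer -/
def sc (c : ℤ) (p : Po α) : Po α := mp (fun t => (Int.mul c t.1, t.2)) p
/-- product with a monomial -/
def ml (m : List α) (p : Po α) : Po α := mp (fun t => (t.1, ap t.2 m)) p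
/-- product with a variable -/
def cm (a : α) (p : Po α) : Po α := mp (fun t => (t.1, a :: t.2)) p

theorem ev_sm (g : α → R) (c : ℤ) (m : List α) (p : Po α) :
    ev g (sm c m p) = (c : R) * mo g m * ev g p := by
  induction p with
  | nil => simp [sm, mp]
  | cons t p ih =>
    have : sm c m (t :: p) = (c * t.1, ap m t.2) :: sm c m p := rfl
    rw [this, ev_cons, ev_cons, ih, mo_ap]; push_cast; ring

theorem ev_sc (g : α → R) (c : ℤ) (p : Po α) : ev g (sc c p) = (c : R) * ev g p := by
  induction p with
  | nil => simp [sc, mp]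
  | cons t p ih =>
    have : sc c (t :: p) = (c * t.1, t.2) :: sc c p := rfl
    rw [this, ev_cons, ev_cons, ih]; push_cast; ring

theorem ev_ml (g : α → R) (m : List α) (p : Po α) : ev g (ml m p) = ev g p * mo g m := by
  induction p with
  | nil => simp [ml, mp]
  | cons t p ih =>
    have : ml m (t :: p) = (t.1, ap t.2 m) :: ml m p := rfl
    rw [this, ev_cons, ev_cons, ih, mo_ap]; ring

theorem ev_cm (g : α → R) (a : α) (p : Po α) : ev g (cm a p) = g a * ev g p := by
  induction p with
  | nil => simp [cm, mp]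
  | cons t p ih =>
    have : cm a (t :: p) = (t.1, a :: t.2) :: cm a p := rfl
    rw [this, ev_cons, ev_cons, ih, mo_cons]; ring

/-- product -/
def pm (p q : Po α) : Po α := List.rec [] (fun t _ ih => ap (sm t.1 t.2 q) ih) p

theorem ev_pm (g : α → R) (p q : Po α) : ev g (pm p q) = ev g p * ev g q := by
  induction p with
  | nil => simp [pm]
  | cons t p ih =>
    have : pm (t :: p) q = ap (sm t.1 t.2 q) (pm p q) := rfl
    rw [this, ev_ap, ev_sm, ih, ev_cons]; ring

/-- linear extension -/
def bd (f : List α → Po β) (p : Po α) : Po β :=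
  List.rec [] (fun t _ ih => ap (sc t.1 (f t.2)) ih) p

theorem ev_bd (g : α → R) (g' : β → R) (D : R →+ R) (f : List α → Po β)
    (h : ∀ m, D (mo g m) = ev g' (f m)) (p : Po α) : D (ev g p) = ev g' (bd f p) := by
  induction p with
  | nil => simp [bd]
  | cons t p ih =>
    have : bd f (t :: p) = ap (sc t.1 (f t.2)) (bd f p) := rfl
    rw [this, ev_ap, ev_sc, ← ih, ev_cons, map_add, ← h, ← zsmul_eq_mul, ← zsmul_eq_mul,
      map_zsmul]

/-- derivations on monomials -/
def der (tb : α → Po α) (m : List α) : Po α :=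
  List.rec [] (fun a l ih => ap (ml l (tb a)) (cm a ih)) m

theorem mo_der (g : α → R) (D : R →+ R) (hD : ∀ a b, D (a * b) = D a * b + a * D b)
    (tb : α → Po α) (h : ∀ a, D (g a) = ev g (tb a)) (m : List α) :
    D (mo g m) = ev g (der tb m) := by
  induction m with
  | nil =>
    have h1 := hD 1 1
    simp only [mul_one, one_mul] at h1
    have : D 1 = 0 := by simpa using h1
    simpa [der] using this
  | cons a m ih =>
    have : der tb (a :: m) = ap (ml m (tb a)) (cm a (der tb m)) := rfl
    rw [this, ev_ap, ev_ml, ev_cm, mo_cons, hD, h, ih]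

theorem ev_der (g : α → R) (D : R →+ R) (hD : ∀ a b, D (a * b) = D a * b + a * D b)
    (tb : α → Po α) (h : ∀ a, D (g a) = ev g (tb a)) (p : Po α) :
    D (ev g p) = ev g (bd (der tb) p) := ev_bd g g D _ (mo_der g D hD tb h) p

/-- substitutions on monomials -/
def sub (tb : α → Po β) (m : List α) : Po β :=
  List.rec [(1, [])] (fun a _ ih => pm (tb a) ih) m

theorem mo_sub (g : α → R) (g' : β → R) (σ : R →+* R) (tb : α → Po β)
    (h : ∀ a, σ (g a) = ev g' (tb a)) (m : List α) : σ (mo g m) = ev g' (sub tb m) := by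
  induction m with
  | nil => simp [sub]
  | cons a m ih =>
    have : sub tb (a :: m) = pm (tb a) (sub tb m) := rfl
    rw [this, ev_pm, mo_cons, map_mul, h, ih]

theorem ev_sub (g : α → R) (g' : β → R) (σ : R →+* R) (tb : α → Po β)
    (h : ∀ a, σ (g a) = ev g' (tb a)) (p : Po α) : σ (ev g p) = ev g' (bd (sub tb) p) :=
  ev_bd g g' σ.toAddMonoidHom _ (mo_sub g g' σ tb h) p

/-! ## the zero test -/

inductive T : Type
  | lf : T
  | nd : T → ℕ → ℤ → T → T

def T.ev (γ : ℕ →* R) : T → R
  | .lf => 0
  | .nd l k c r => l.ev γ + (c : R) * γ k + r.ev γ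

def frc {X : Type} (t : T) (f : T → X) : X :=
  T.rec (f .lf) (fun l k c r _ _ => f (.nd l k c r)) t
def fn {X : Type} (n : ℕ) (f : ℕ → X) : X := Nat.rec (f 0) (fun m _ => f (Nat.succ m)) n
def fi {X : Type} (c : ℤ) (f : ℤ → X) : X :=
  Int.rec (fun n => fn n fun k => f (Int.ofNat k)) (fun n => fn n fun k => f (Int.negSucc k)) c

theorem frc_eq {X : Type} (t : T) (f : T → X) : frc t f = f t := by cases t <;> rfl
theorem fn_eq {X : Type} (n : ℕ) (f : ℕ → X) : fn n f = f n := by cases n <;> rfl
theorem fi_eq {X : Type} (c : ℤ) (f : ℤ → X) : fi c f = f c := by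
  cases c with
  | ofNat n => exact fn_eq n fun k => f (Int.ofNat k)
  | negSucc n => exact fn_eq n fun k => f (Int.negSucc k)

def ins (k : ℕ) (c : ℤ) (t : T) : T :=
  T.rec (.nd .lf k c .lf) (fun l k' c' r il ir =>
    Bool.rec (motive := fun _ => T)
      (Bool.rec (motive := fun _ => T) (frc ir fun r' => .nd l k' c' r')
        (frc il fun l' => .nd l' k' c' r) (Nat.ble (Nat.mod k 1000003) (Nat.mod k' 1000003)))
      (fi (Int.add c' c) fun c'' => .nd l k' c'' r) (Nat.beq k k')) t

theorem ev_ins (γ : ℕ →* R) (k : ℕ) (c : ℤ) (t : T) :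
    (ins k c t).ev γ = t.ev γ + (c : R) * γ k := by
  induction t with
  | lf => simp [ins, T.ev]
  | nd l k' c' r il ir =>
    have : ins k c (.nd l k' c' r) = Bool.rec (motive := fun _ => T)
      (Bool.rec (motive := fun _ => T) (frc (ins k c r) fun r' => .nd l k' c' r')
        (frc (ins k c l) fun l' => .nd l' k' c' r)
        (Nat.ble (Nat.mod k 1000003) (Nat.mod k' 1000003)))
      (fi (Int.add c' c) fun c'' => .nd l k' c'' r) (Nat.beq k k') := rfl
    rw [this, frc_eq, frc_eq, fi_eq]
    cases h : Nat.beq k k' with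
    | true =>
      obtain rfl : k = k' := Nat.eq_of_beq_eq_true h
      change l.ev γ + ((c' + c : ℤ) : R) * γ k + r.ev γ = l.ev γ + (c' : R) * γ k + r.ev γ + _
      push_cast; ring
    | false =>
      cases Nat.ble (Nat.mod k 1000003) (Nat.mod k' 1000003) with
      | true =>
        change (ins k c l).ev γ + (c' : R) * γ k' + r.ev γ = l.ev γ + (c' : R) * γ k' + r.ev γ + _
        rw [il]; ring
      | false =>
        change l.ev γ + (c' : R) * γ k' + (ins k c r).ev γ = l.ev γ + (c' : R) * γ k' + r.ev γ + _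
        rw [ir]; ring

def key (pr : α → ℕ) (m : List α) : ℕ := List.rec 1 (fun a _ ih => Nat.mul (pr a) ih) m

theorem key_eq (γ : ℕ →* R) (pr : α → ℕ) (g : α → R) (h : ∀ a, γ (pr a) = g a) (m : List α) :
    γ (key pr m) = mo g m := by
  induction m with
  | nil => exact map_one γ
  | cons a m ih =>
    have : key pr (a :: m) = pr a * key pr m := rfl
    rw [this, map_mul, h, ih, mo_cons]

def fl (pr : α → ℕ) (p : Po α) : T → T :=
  List.rec (motive := fun _ => T → T) (fun t => t)
    (fun x _ ih t => fn (key pr x.2) fun k => fi x.1 fun c => frc (ins k c t) ih) p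

theorem ev_fl (γ : ℕ →* R) (pr : α → ℕ) (g : α → R) (h : ∀ a, γ (pr a) = g a) (p : Po α)
    (t : T) : (fl pr p t).ev γ = t.ev γ + ev g p := by
  induction p generalizing t with
  | nil => simp [fl]
  | cons x p ih =>
    have : fl pr (x :: p) t =
      fn (key pr x.2) fun k => fi x.1 fun c => frc (ins k c t) (fl pr p) := rfl
    rw [this, fn_eq, fi_eq, frc_eq, ih, ev_ins, key_eq γ pr g h, ev_cons]; ring

def allz (t : T) : Bool :=
  T.rec true (fun _ _ c _ il ir => Bool.rec (motive := fun _ => Bool) false
    (Bool.rec (motive := fun _ => Bool) false ir il)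
    (Int.rec (fun n => Nat.beq n 0) (fun _ => false) c)) t

theorem ev_allz (γ : ℕ →* R) (t : T) (h : allz t = true) : t.ev γ = 0 := by
  induction t with
  | lf => rfl
  | nd l k c r il ir =>
    have : allz (.nd l k c r) = Bool.rec (motive := fun _ => Bool) false
      (Bool.rec (motive := fun _ => Bool) false (allz r) (allz l))
      (Int.rec (fun n => Nat.beq n 0) (fun _ => false) c) := rfl
    rw [this] at h
    cases c with
    | negSucc n => exact absurd h (by simp)
    | ofNat n =>
      cases n with
      | succ n => exact absurd h (by simp [Nat.beq])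
      | zero =>
        change Bool.rec (motive := fun _ => Bool) false (allz r) (allz l) = true at h
        cases hl : allz l with
        | false => rw [hl] at h; exact absurd h (by simp)
        | true =>
          rw [hl] at h
          simp [T.ev, il hl, ir h]

def zt (pr : α → ℕ) (p : Po α) : Bool := frc (fl pr p .lf) allz

theorem exists_gamma (pr : α → ℕ) (hp : ∀ a, (pr a).Prime) (g : α → R)
    (hg : ∀ a b, pr a = pr b → g a = g b) : ∃ γ : ℕ →* R, ∀ a, γ (pr a) = g a := by
  classical
  let g0 : ℕ → R := fun n => if h : ∃ a, pr a = n then g h.choose else 0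
  refine ⟨⟨⟨fun n => if n = 0 then 0 else (n.primeFactorsList.map g0).prod, by simp⟩, ?_⟩, ?_⟩
  · intro a b
    by_cases ha : a = 0
    · simp [ha]
    by_cases hb : b = 0
    · simp [hb]
    simp only [ha, hb, mul_eq_zero, or_self, if_false]
    rw [((Nat.perm_primeFactorsList_mul ha hb).map g0).prod_eq, List.map_append, List.prod_append]
  · intro a
    have h : ∃ b, pr b = pr a := ⟨a, rfl⟩
    simp only [MonoidHom.coe_mk, OneHom.coe_mk, (hp a).ne_zero, if_false,
      Nat.primeFactorsList_prime (hp a), List.map_cons, List.map_nil, List.prod_cons,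
      List.prod_nil, mul_one, g0, dif_pos h]
    exact hg _ _ h.choose_spec

theorem ev_zt (pr : α → ℕ) (hp : ∀ a, (pr a).Prime) (g : α → R)
    (hg : ∀ a b, pr a = pr b → g a = g b) (p : Po α) (h : zt pr p = true) : ev g p = 0 := by
  obtain ⟨γ, hγ⟩ := exists_gamma pr hp g hg
  have h1 := ev_allz γ _ (by rwa [zt, frc_eq] at h)
  rw [ev_fl γ pr g hγ] at h1
  simpa [T.ev] using h1

/-! ## degrees -/

def wm (wt : α → ℕ) (m : List α) : ℕ := List.rec 0 (fun a _ ih => Nat.add (wt a) ih) m
def dg (wt : α → ℕ) (n : ℕ) (p : Po α) : Bool :=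
  List.rec true (fun t _ ih => Bool.rec (motive := fun _ => Bool) false ih
    (Nat.beq (wm wt t.2) n)) p

theorem ev_dg (g : α → R) (P : ℕ → R → Prop) (h1 : P 0 1)
    (hm : ∀ a b x y, P a x → P b y → P (a + b) (x * y)) (h0 : ∀ n, P n 0)
    (ha : ∀ n x y, P n x → P n y → P n (x + y)) (hc : ∀ n (c : ℤ) x, P n x → P n (c * x))
    (wt : α → ℕ) (hg : ∀ a, P (wt a) (g a)) (n : ℕ) (p : Po α) (h : dg wt n p = true) :
    P n (ev g p) := by
  have hmo : ∀ m, P (wm wt m) (mo g m) := by
    intro m
    induction m with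
    | nil => exact h1
    | cons a m ih => rw [mo_cons]; exact hm _ _ _ _ (hg a) ih
  induction p with
  | nil => exact h0 n
  | cons t p ih =>
    have : dg wt n (t :: p) = Bool.rec (motive := fun _ => Bool) false (dg wt n p)
      (Nat.beq (wm wt t.2) n) := rfl
    rw [this] at h
    cases hb : Nat.beq (wm wt t.2) n with
    | false => rw [hb] at h; exact absurd h (by simp)
    | true =>
      rw [hb] at h
      rw [ev_cons]
      exact ha _ _ _ (hc _ _ _ (Nat.eq_of_beq_eq_true hb ▸ hmo t.2)) (ih h)

end

end Vale.Agent.P352X.RS.Alg
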