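import Vale.Agent.P352X.R.RES.Alg.Ops

/-!
# P352X, row ALG: null coordinates, the Lorentz action, the Gram determinant
-/

set_option linter.all false

namespace Vale.Agent.P352X.RS.Alg

open Vale.Agent.P352 Vale.Agent.P352.GF
open MvPolynomial (X C pderiv aeval)

noncomputable section

def omH (w : Ix → V) : P20 →+ P20 where
  toFun := om w
  map_zero' := by simp [om]
  map_add' a b := by simp [om, mul_add, Finset.sum_add_distrib]

theorem omH_apply (w : Ix → V) (S : P20) : omH w S = om w S := rfl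

theorem om_mul (w : Ix → V) (A B : P20) : om w (A * B) = om w A * B + A * om w B := by
  simp only [om, Derivation.leibniz, smul_eq_mul, Finset.sum_mul, Finset.mul_sum,
    ← Finset.sum_add_distrib]
  exact Finset.sum_congr rfl fun j _ => Finset.sum_congr rfl fun m _ =>
    Finset.sum_congr rfl fun n _ => by ring

theorem om_C (w : Ix → V) (a : ℂ) (S : P20) : om w (C a * S) = C a * om w S := by
  rw [om_mul]; simp [om]

theorem om_X (w : Ix → V) (j : Fin 5) (n : Ix) :
    om w (X (j, n)) = ∑ m, C (w m n : ℂ) * X (j, m) := by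
  simp only [om, pd_X]
  rw [Finset.sum_eq_single j]
  · simp
  · intro b _ hb; simp [hb.symm]
  · simp

theorem om_lin (w : Ix → V) (a : V) (j : Fin 5) : om w (linP a j) =
    ∑ n, C ((eta n * a n : ℝ) : ℂ) * ∑ m, C (w m n : ℂ) * X (j, m) := by
  rw [linP, ← omH_apply, map_sum]
  simp only [omH_apply, om_C, om_X]

abbrev CV := Fin 5 × Fin 4
/-- null coordinates -/
def gC (a : CV) : P20 := ![linP va a.1, linP vb a.1, X (a.1, 2), X (a.1, 3)] a.2

def t4 {γ : Type} (a b c d : γ) (j : Fin 4) : γ :=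
  Nat.rec a (fun n _ => Nat.rec b (fun n _ => Nat.rec c (fun _ _ => d) n) n) j.val

theorem lin_va (j : Fin 5) : linP va j = X (j, 0) - X (j, 1) := by
  simp [linP, va, eta, o, Fin.sum_univ_four, sub_eq_add_neg]

theorem lin_vb (j : Fin 5) : linP vb j = C (1 / 2) * (X (j, 0) + X (j, 1)) := by
  simp [linP, vb, eta, o, Fin.sum_univ_four, mul_add]

theorem half : (C (1 / 2 : ℂ) : P20) * 2 = 1 := by
  rw [show (2 : P20) = C 2 from rfl, ← map_mul]; norm_num

def trG (a : GV) : Po CV := [(1, [(a.1, 0), (a.2, 1)]), (1, [(a.1, 1), (a.2, 0)]),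
  (-1, [(a.1, 2), (a.2, 2)]), (-1, [(a.1, 3), (a.2, 3)])]

theorem gG_tr (a : GV) : gG a = ev gC (trG a) := by
  have : gG a = X (a.1, 0) * X (a.2, 0) - X (a.1, 1) * X (a.2, 1) - X (a.1, 2) * X (a.2, 2) -
      X (a.1, 3) * X (a.2, 3) := by
    simp [gG, dotP, eta, o, Fin.sum_univ_four, sub_eq_add_neg]
  rw [this]
  simp only [trG, ev_cons, ev_nil, mo_cons, mo_nil, gC, Matrix.cons_val, lin_va, lin_vb]
  push_cast
  linear_combination (-(X (a.1, 0) * X (a.2, 0) - X (a.1, 1) * X (a.2, 1))) * half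

theorem ev_tr (p : Po GV) : ev gG p = ev gC (bd (sub trG) p) :=
  ev_sub gG gC (RingHom.id _) trG gG_tr p

def prC (a : CV) : ℕ := t5 (t4 2 3 5 7) (t4 11 13 17 19) (t4 23 29 31 37) (t4 41 43 47 53)
  (t4 59 61 67 71) a.1 a.2

theorem ztC (p : Po CV) (h : zt prC p = true) : ev gC p = 0 := by
  refine ev_zt prC (by decide +kernel) gC (fun a b hab => ?_) p h
  have : ∀ a b : CV, prC a = prC b → a = b := by decide +kernel
  rw [this a b hab]

theorem deg_lin (a : V) (j : Fin 5) : Deg (w5 j) (linP a j) := by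
  rw [w5_eq]
  exact MvPolynomial.IsWeightedHomogeneous.sum _ _ _ fun m _ => deg_C _ (deg_X j m)

theorem degC (n : ℕ) (p : Po CV) (h : dg (fun a : CV => w5 a.1) n p = true) :
    Deg n (ev gC p) := by
  refine deg_ev gC _ (fun a => ?_) n p h
  obtain ⟨j, m⟩ := a
  fin_cases m
  · exact deg_lin _ j
  · exact deg_lin _ j
  · rw [w5_eq]; exact deg_X j 2
  · rw [w5_eq]; exact deg_X j 3

/-- null rotations -/
def wA : Ix → V := ![![0, 0, 1, 0], ![0, 0, -1, 0], ![1, 1, 0, 0], ![0, 0, 0, 0]]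
def wB : Ix → V := ![![0, 0, 0, 1], ![0, 0, 0, -1], ![0, 0, 0, 0], ![1, 1, 0, 0]]

theorem so_A : So wA := fun m n => by fin_cases m <;> fin_cases n <;> simp [wA, eta, o]
theorem so_B : So wB := fun m n => by fin_cases m <;> fin_cases n <;> simp [wB, eta, o]
theorem so_H : So wH := fun m n => by fin_cases m <;> fin_cases n <;> simp [wH, eta, o]

def tA (a : CV) : Po CV := t4 [] [(1, [(a.1, 2)])] [(1, [(a.1, 0)])] [] a.2
def tB (a : CV) : Po CV := t4 [] [(1, [(a.1, 3)])] [] [(1, [(a.1, 0)])] a.2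
def tH (a : CV) : Po CV := t4 [(-1, [(a.1, 0)])] [(1, [(a.1, 1)])] [] [] a.2

theorem om_gC (w : Ix → V) (j : Fin 5) :
    om w (gC (j, 0)) = om w (X (j, 0)) - om w (X (j, 1)) ∧
    om w (gC (j, 1)) = C (1 / 2) * (om w (X (j, 0)) + om w (X (j, 1))) := by
  constructor
  · change om w (linP va j) = _
    rw [lin_va]; exact map_sub (omH w) _ _
  · change om w (linP vb j) = _
    rw [lin_vb, om_C, ← omH_apply, map_add]; rfl

theorem ev_A (p : Po CV) : om wA (ev gC p) = ev gC (bd (der tA) p) := by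
  refine ev_der gC (omH wA) (om_mul wA) tA (fun a => ?_) p
  obtain ⟨j, m⟩ := a
  rw [omH_apply]
  fin_cases m
  · refine (om_gC wA j).1.trans ?_
    simp [om_X, wA, Fin.sum_univ_four, tA, t4]
  · refine (om_gC wA j).2.trans ?_
    have := half
    simp [om_X, wA, Fin.sum_univ_four, tA, t4, gC] at this ⊢
    linear_combination X (j, 2) * this
  · simp [om_X, wA, Fin.sum_univ_four, tA, t4, gC, lin_va, sub_eq_add_neg]
  · simp [om_X, wA, Fin.sum_univ_four, tA, t4, gC]

theorem ev_B (p : Po CV) : om wB (ev gC p) = ev gC (bd (der tB) p) := by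
  refine ev_der gC (omH wB) (om_mul wB) tB (fun a => ?_) p
  obtain ⟨j, m⟩ := a
  rw [omH_apply]
  fin_cases m
  · refine (om_gC wB j).1.trans ?_
    simp [om_X, wB, Fin.sum_univ_four, tB, t4]
  · refine (om_gC wB j).2.trans ?_
    have := half
    simp [om_X, wB, Fin.sum_univ_four, tB, t4, gC] at this ⊢
    linear_combination X (j, 3) * this
  · simp [om_X, wB, Fin.sum_univ_four, tB, t4, gC]
  · simp [om_X, wB, Fin.sum_univ_four, tB, t4, gC, lin_va, sub_eq_add_neg]

theorem ev_H (p : Po CV) : om wH (ev gC p) = ev gC (bd (der tH) p) := by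
  refine ev_der gC (omH wH) (om_mul wH) tH (fun a => ?_) p
  obtain ⟨j, m⟩ := a
  rw [omH_apply]
  fin_cases m
  · refine (om_gC wH j).1.trans ?_
    simp [om_X, wH, Fin.sum_univ_four, tH, t4, gC, lin_va]
  · refine (om_gC wH j).2.trans ?_
    simp [om_X, wH, Fin.sum_univ_four, tH, t4, gC, lin_vb, add_comm]
  · simp [om_X, wH, Fin.sum_univ_four, tH, t4, gC]
  · simp [om_X, wH, Fin.sum_univ_four, tH, t4, gC]

theorem om_dot (w : Ix → V) (hw : So w) (j k : Fin 5) : om w (dotP j k) = 0 := by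
  rw [dotP, ← omH_apply, map_sum]
  simp only [omH_apply, mul_assoc, om_C]
  simp only [om_mul, om_X, Finset.sum_mul, Finset.mul_sum, mul_add, Finset.sum_add_distrib]
  rw [Finset.sum_comm, ← Finset.sum_add_distrib]
  refine Finset.sum_eq_zero fun m _ => ?_
  rw [← Finset.sum_add_distrib]
  refine Finset.sum_eq_zero fun n _ => ?_
  have h : (C (eta n : ℂ) : P20) * C (w m n : ℂ) + C (eta m : ℂ) * C (w n m : ℂ) = 0 := by
    rw [← map_mul, ← map_mul, ← map_add, ← Complex.ofReal_mul, ← Complex.ofReal_mul, hw m n]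
    simp
  linear_combination X (j, m) * X (k, n) * h

theorem om_dd (w : Ix → V) (hw : So w) (S : P20) :
    om w (dotP 0 0 * dotP 2 2 * S) = dotP 0 0 * dotP 2 2 * om w S := by
  simp only [om_mul, om_dot w hw]; ring

theorem deg_dd {n : ℕ} {S : P20} (h : Deg n S) : Deg n (dotP 0 0 * dotP 2 2 * S) := by
  have := ((deg_dot 0 0).mul (deg_dot 2 2)).mul h
  rwa [show w5 0 + w5 0 + (w5 2 + w5 2) + n = n from Nat.zero_add n] at this

def s0 : Po CV := [(1, [(1, 0), (1, 0), (3, 2), (4, 2), (3, 1), (3, 1)]),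
  (-2, [(1, 0), (1, 0), (3, 2), (4, 2), (3, 1), (4, 1)]),
  (1, [(1, 0), (1, 0), (3, 2), (4, 2), (4, 1), (4, 1)]),
  (1, [(1, 0), (1, 0), (3, 3), (4, 3), (3, 1), (3, 1)]),
  (-2, [(1, 0), (1, 0), (3, 3), (4, 3), (3, 1), (4, 1)]),
  (1, [(1, 0), (1, 0), (3, 3), (4, 3), (4, 1), (4, 1)])]

theorem S0_eq : S0 = dotP 0 0 * dotP 2 2 * ev gC s0 := by
  simp only [S0, s0, ev_cons, ev_nil, mo_cons, mo_nil, gC, Matrix.cons_val]
  push_cast
  ring

/-! ## the Gram determinant -/

theorem det_gram : (Matrix.of fun j k : Fin 5 => dotP j k).det = 0 := by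
  let M : Matrix (Fin 5) (Fin 5) P20 :=
    Matrix.of fun j => Fin.snoc (α := fun _ => P20) (fun m : Fin 4 => X (j, m)) 0
  let N : Matrix (Fin 5) (Fin 5) P20 := Matrix.of fun i k =>
    Fin.snoc (α := fun _ => P20) (fun m : Fin 4 => C (eta m : ℂ) * X (k, m)) 0 i
  have : (Matrix.of fun j k : Fin 5 => dotP j k) = M * N := by
    refine Matrix.ext fun j k => ?_
    rw [Matrix.mul_apply, Fin.sum_univ_castSucc]
    simp only [M, N, Matrix.of_apply, Fin.snoc_castSucc, Fin.snoc_last, mul_zero, add_zero, dotP]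
    exact Finset.sum_congr rfl fun m _ => by ring
  rw [this, Matrix.det_mul, Matrix.det_eq_zero_of_column_eq_zero (Fin.last 4), zero_mul]
  intro j
  simp only [M, Matrix.of_apply, Fin.snoc_last]

end

end Vale.Agent.P352X.RS.Alg
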