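import Vale.Agent.P352X.R.RES.Spec
import Vale.Agent.P352X.R.RES.Alg.Eng

/-!
# P352X, row ALG: the operators on polynomials in the scalar products
-/

set_option linter.all false

namespace Vale.Agent.P352X.RS.Alg

open Vale.Agent.P352 Vale.Agent.P352.GF
open MvPolynomial (X C pderiv aeval)

noncomputable section

abbrev GV := Fin 5 × Fin 5
/-- the scalar products -/
def gG (a : GV) : P20 := dotP a.1 a.2

/-- `x_w . ∂_x` -/
def Dh (w x : Fin 5) : P20 →+ P20 where
  toFun S := ∑ m, X (w, m) * pderiv (x, m) S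
  map_zero' := by simp
  map_add' a b := by simp [mul_add, Finset.sum_add_distrib]

/-- `∂_x . ∂_y` -/
def DD (x y : Fin 5) : P20 →+ P20 where
  toFun S := ∑ m, C (eta m : ℂ) * pderiv (x, m) (pderiv (y, m) S)
  map_zero' := by simp
  map_add' a b := by simp [mul_add, Finset.sum_add_distrib]

theorem Dh_apply (w x : Fin 5) (S : P20) : Dh w x S = ∑ m, X (w, m) * pderiv (x, m) S := rfl
theorem DD_apply (x y : Fin 5) (S : P20) :
    DD x y S = ∑ m, C (eta m : ℂ) * pderiv (x, m) (pderiv (y, m) S) := rfl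

theorem eta_sq (m : Ix) : (C (eta m : ℂ) : P20) * C (eta m : ℂ) = 1 := by
  rw [← map_mul]
  unfold eta
  split_ifs <;> simp

theorem pd_X (x p : Fin 5) (m n : Ix) : pderiv (x, m) (X (p, n) : P20) =
    if p = x ∧ n = m then 1 else 0 := by
  classical
  rw [MvPolynomial.pderiv_X, Pi.single_apply]
  simp [Prod.ext_iff]

theorem pd_dot (x p q : Fin 5) (m : Ix) : pderiv (x, m) (dotP p q) =
    (if p = x then C (eta m : ℂ) * X (q, m) else 0) +
      (if q = x then C (eta m : ℂ) * X (p, m) else 0) := by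
  simp only [dotP, map_sum, Derivation.leibniz, pd_X, MvPolynomial.pderiv_C, smul_eq_mul]
  by_cases hp : p = x <;> by_cases hq : q = x <;>
    simp [hp, hq, Finset.sum_add_distrib, mul_comm, add_comm]

theorem Dh_mul (w x : Fin 5) (A B : P20) : Dh w x (A * B) = Dh w x A * B + A * Dh w x B := by
  simp only [Dh_apply, Derivation.leibniz, smul_eq_mul, Finset.sum_mul, Finset.mul_sum,
    ← Finset.sum_add_distrib]
  exact Finset.sum_congr rfl fun m _ => by ring

theorem Dh_dot (w x p q : Fin 5) : Dh w x (dotP p q) =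
    (if p = x then dotP w q else 0) + (if q = x then dotP p w else 0) := by
  simp only [Dh_apply, pd_dot, mul_add, Finset.sum_add_distrib]
  congr 1
  · split_ifs
    · exact Finset.sum_congr rfl fun m _ => by ring
    · simp
  · split_ifs
    · exact Finset.sum_congr rfl fun m _ => by ring
    · simp

theorem cross (x y p q : Fin 5) (B : P20) :
    ∑ m, C (eta m : ℂ) * (pderiv (x, m) (dotP p q) * pderiv (y, m) B) =
      (if p = x then Dh q y B else 0) + (if q = x then Dh p y B else 0) := by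
  simp only [pd_dot, add_mul, mul_add, Finset.sum_add_distrib, Dh_apply]
  congr 1
  · split_ifs
    · exact Finset.sum_congr rfl fun m _ => by linear_combination (X (q, m) * pderiv (y, m) B) * eta_sq m
    · simp
  · split_ifs
    · exact Finset.sum_congr rfl fun m _ => by linear_combination (X (p, m) * pderiv (y, m) B) * eta_sq m
    · simp

theorem DD_dot (x y p q : Fin 5) : DD x y (dotP p q) =
    (if p = x then if q = y then 4 else 0 else 0) +
      (if q = x then if p = y then 4 else 0 else 0) := by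
  have h : ∀ m, C (eta m : ℂ) * pderiv (x, m) (pderiv (y, m) (dotP p q)) =
      (if p = x then if q = y then 1 else 0 else 0) +
        (if q = x then if p = y then 1 else 0 else 0) := by
    intro m
    rw [pd_dot, map_add]
    simp only [apply_ite (pderiv _), MvPolynomial.pderiv_C_mul, pd_X, map_zero, and_true]
    split_ifs <;> first | linear_combination eta_sq m | linear_combination 2 * eta_sq m | ring
  simp only [DD_apply, h, Finset.sum_const, Finset.card_univ, Fintype.card_fin]
  split_ifs <;> norm_num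

theorem DD_mul (x y : Fin 5) (A B : P20) : DD x y (A * B) = DD x y A * B +
    (∑ m, C (eta m : ℂ) * (pderiv (x, m) A * pderiv (y, m) B) +
    (∑ m, C (eta m : ℂ) * (pderiv (y, m) A * pderiv (x, m) B) + A * DD x y B)) := by
  simp only [DD_apply, Derivation.leibniz, smul_eq_mul, map_add, Finset.sum_mul, Finset.mul_sum,
    ← Finset.sum_add_distrib]
  exact Finset.sum_congr rfl fun m _ => by ring

/-! ## the same operators on lists -/

def ie {α : Type} (p x : Fin 5) (A : Po α) : Po α :=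
  Bool.rec (motive := fun _ => Po α) [] A (Nat.beq p.val x.val)

theorem ev_ie {α : Type} (g : α → P20) (p x : Fin 5) (A : Po α) :
    ev g (ie p x A) = if p = x then ev g A else 0 := by
  unfold ie
  by_cases h : p = x
  · subst h; simp
  · have : Nat.beq p.val x.val = false := by
      rw [← Bool.not_eq_true, Nat.beq_eq]; exact fun h' => h (Fin.ext h')
    rw [this, if_neg h]; rfl

def tbh (w x : Fin 5) (a : GV) : Po GV :=
  ap (ie a.1 x [(1, [(w, a.2)])]) (ie a.2 x [(1, [(a.1, w)])])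
def dhm (w x : Fin 5) : List GV → Po GV := der (tbh w x)
def dh (w x : Fin 5) : Po GV → Po GV := bd (dhm w x)

theorem mo_dhm (w x : Fin 5) (m : List GV) : Dh w x (mo gG m) = ev gG (dhm w x m) :=
  mo_der gG (Dh w x) (Dh_mul w x) _ (fun a => by
    simp [tbh, ev_ap, ev_ie, gG, Dh_dot]) m

theorem ev_dh (w x : Fin 5) (p : Po GV) : Dh w x (ev gG p) = ev gG (dh w x p) :=
  ev_bd gG gG _ _ (mo_dhm w x) p

def crs (x y : Fin 5) (a : GV) (l : List GV) : Po GV :=
  ap (ie a.1 x (dhm a.2 y l)) (ie a.2 x (dhm a.1 y l))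
def ddm (x y : Fin 5) (m : List GV) : Po GV :=
  List.rec [] (fun a l ih => ap (ap (ie a.1 x (ie a.2 y [(4, l)])) (ie a.2 x (ie a.1 y [(4, l)])))
    (ap (crs x y a l) (ap (crs y x a l) (cm a ih)))) m
def dd (x y : Fin 5) : Po GV → Po GV := bd (ddm x y)

theorem mo_ddm (x y : Fin 5) (m : List GV) : DD x y (mo gG m) = ev gG (ddm x y m) := by
  induction m with
  | nil => simp [ddm, DD_apply]
  | cons a l ih =>
    have : ddm x y (a :: l) = ap (ap (ie a.1 x (ie a.2 y [(4, l)]))
      (ie a.2 x (ie a.1 y [(4, l)]))) (ap (crs x y a l) (ap (crs y x a l)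
        (cm a (ddm x y l)))) := rfl
    rw [this, mo_cons, DD_mul, ih, gG, cross, cross, DD_dot]
    simp only [ev_ap, ev_ie, crs, ev_cm, ← mo_dhm, ev_cons, ev_nil, gG, add_mul, ite_mul, zero_mul,
      add_zero, Int.cast_ofNat]

theorem ev_dd (x y : Fin 5) (p : Po GV) : DD x y (ev gG p) = ev gG (dd x y p) :=
  ev_bd gG gG _ _ (mo_ddm x y) p

/-! ## the operators of the specification -/

theorem pd_comm (i j : Fin 5 × Ix) (S : P20) : pderiv i (pderiv j S) = pderiv j (pderiv i S) := by
  induction S using MvPolynomial.induction_on with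
  | C a => simp
  | add p q hp hq => simp [hp, hq]
  | mul_X p n hp =>
    classical
    simp only [Derivation.leibniz, smul_eq_mul, map_add, hp, MvPolynomial.pderiv_X,
      Pi.single_apply]
    split_ifs <;> simp only [Derivation.map_one_eq_zero, map_zero] <;> ring

theorem d1_eq (S : P20) : d1 S = Dh 0 3 S := rfl
theorem d3_eq (S : P20) : d3 S = Dh 2 4 S := rfl
theorem d2_eq (S : P20) : d2 S = -(Dh 1 3 S + Dh 1 4 S) := by
  simp only [d2, D2, Dh_apply, ← Finset.sum_add_distrib, ← Finset.sum_neg_distrib]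
  exact Finset.sum_congr rfl fun m _ => by ring
theorem box3_eq (S : P20) : box3 S = DD 4 4 S := rfl
theorem box2_eq (S : P20) : box2 S = DD 3 3 S + DD 3 4 S + (DD 4 3 S + DD 4 4 S) := by
  simp only [box2, D2, DD_apply, ← Finset.sum_add_distrib, map_neg, map_add]
  exact Finset.sum_congr rfl fun m _ => by ring
theorem dd3_eq (S : P20) : dd3 S = DD 4 2 (DD 4 2 S) := by
  simp only [dd3, DD_apply, map_sum, Finset.mul_sum, MvPolynomial.pderiv_C_mul]
  conv_rhs => rw [Finset.sum_comm]
  refine Finset.sum_congr rfl fun r _ => Finset.sum_congr rfl fun s _ => ?_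
  rw [pd_comm (2, r) (4, s)]
  push_cast
  rw [map_mul]; ring
theorem dd2_eq (S : P20) : dd2 S = DD 3 1 (DD 3 1 S + DD 4 1 S) + DD 4 1 (DD 3 1 S + DD 4 1 S) := by
  simp only [dd2, D2, DD_apply, map_sum, Finset.mul_sum, MvPolynomial.pderiv_C_mul, map_add,
    map_neg, mul_add, ← Finset.sum_add_distrib]
  conv_rhs => rw [Finset.sum_comm]
  refine Finset.sum_congr rfl fun r _ => Finset.sum_congr rfl fun s _ => ?_
  rw [pd_comm (1, r) (4, s), pd_comm (1, r) (3, s)]
  push_cast
  rw [map_mul]; ring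

theorem Dh_C (w x : Fin 5) (a : ℂ) (S : P20) : Dh w x (C a * S) = C a * Dh w x S := by
  simp only [Dh_apply, MvPolynomial.pderiv_C_mul, Finset.mul_sum]
  exact Finset.sum_congr rfl fun m _ => by ring

theorem DD_C (x y : Fin 5) (a : ℂ) (S : P20) : DD x y (C a * S) = C a * DD x y S := by
  simp only [DD_apply, MvPolynomial.pderiv_C_mul, Finset.mul_sum]
  exact Finset.sum_congr rfl fun m _ => by ring

theorem sym6_C (a : ℂ) (S : P20) : sym6 (C a * S) = C a * sym6 S := by
  have h12 : ∀ S, s12 (C a * S) = C a * s12 S := fun S => by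
    rw [map_mul]; congr 1; exact s12.commutes a
  have h13 : ∀ S, s13 (C a * S) = C a * s13 S := fun S => by
    rw [map_mul]; congr 1; exact s13.commutes a
  simp only [sym6, h12, h13]; ring

/-! ## substitutions -/

def lin (l : List (ℤ × Fin 5)) (m : Ix) : P20 := (l.map fun t => (t.1 : P20) * X (t.2, m)).sum
def bil (l k : List (ℤ × Fin 5)) : Po GV :=
  List.rec [] (fun t _ ih => ap (mp (fun s => (Int.mul t.1 s.1, [(t.2, s.2)])) k) ih) l

theorem ev_bil (l k : List (ℤ × Fin 5)) :
    ev gG (bil l k) = ∑ m, C (eta m : ℂ) * lin l m * lin k m := by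
  have h1 : ∀ (t : ℤ × Fin 5) (k : List (ℤ × Fin 5)),
      ev gG (mp (fun s => (Int.mul t.1 s.1, [(t.2, s.2)])) k) =
        ∑ m, C (eta m : ℂ) * ((t.1 : P20) * X (t.2, m)) * lin k m := by
    intro t k
    induction k with
    | nil => simp [mp, lin]
    | cons s k ih =>
      have : mp (fun s => (Int.mul t.1 s.1, [(t.2, s.2)])) (s :: k) =
        (t.1 * s.1, [(t.2, s.2)]) :: mp (fun s => (Int.mul t.1 s.1, [(t.2, s.2)])) k := rfl
      rw [this, ev_cons, ih]
      simp only [lin, List.map_cons, List.sum_cons, mo_cons, mo_nil, gG, dotP, mul_one,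
        Finset.mul_sum, ← Finset.sum_add_distrib]
      exact Finset.sum_congr rfl fun m _ => by push_cast; ring
  induction l with
  | nil => simp [bil, lin]
  | cons t l ih =>
    have : bil (t :: l) k = ap (mp (fun s => (Int.mul t.1 s.1, [(t.2, s.2)])) k) (bil l k) := rfl
    rw [this, ev_ap, ih, h1, ← Finset.sum_add_distrib]
    simp only [lin, List.map_cons, List.sum_cons]
    exact Finset.sum_congr rfl fun m _ => by ring

def sb (vt : Fin 5 → List (ℤ × Fin 5)) : Po GV → Po GV :=
  bd (sub fun a : GV => bil (vt a.1) (vt a.2))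

theorem ev_sb (σ : P20 →ₐ[ℂ] P20) (vt : Fin 5 → List (ℤ × Fin 5))
    (h : ∀ j m, σ (X (j, m)) = lin (vt j) m) (p : Po GV) : σ (ev gG p) = ev gG (sb vt p) :=
  ev_sub gG gG σ.toRingHom _ (fun a => by
    rw [ev_bil, gG, dotP]
    change σ _ = _
    rw [map_sum]
    refine Finset.sum_congr rfl fun m _ => ?_
    rw [map_mul, map_mul, h, h]
    congr 2
    exact σ.commutes _) p

/-- tables indexed by the five vectors -/
def t5 {γ : Type} (a b c d e : γ) (j : Fin 5) : γ :=
  Nat.rec a (fun n _ => Nat.rec b (fun n _ => Nat.rec c (fun n _ => Nat.rec d (fun _ _ => e) n)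
    n) n) j.val

def v12 : Fin 5 → List (ℤ × Fin 5) := t5 [(1, 1)] [(1, 0)] [(1, 2)] [(-1, 3)] [(1, 4), (-1, 3)]
def v13 : Fin 5 → List (ℤ × Fin 5) := t5 [(1, 2)] [(1, 1)] [(1, 0)] [(1, 4)] [(1, 3)]
def v231 : Fin 5 → List (ℤ × Fin 5) := t5 [(1, 2)] [(1, 0)] [(1, 1)] [(1, 4), (-1, 3)] [(-1, 3)]
def v312 : Fin 5 → List (ℤ × Fin 5) := t5 [(1, 1)] [(1, 2)] [(1, 0)] [(-1, 4)] [(1, 3), (-1, 4)]
def v23 : Fin 5 → List (ℤ × Fin 5) := t5 [(1, 0)] [(1, 2)] [(1, 1)] [(1, 3), (-1, 4)] [(-1, 4)]

def sy (p : Po GV) : Po GV :=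
  ap p (ap (sb v12 p) (ap (sb v13 p) (ap (sb v231 p) (ap (sb v312 p) (sb v23 p)))))

theorem ev_sy (p : Po GV) : sym6 (ev gG p) = ev gG (sy p) := by
  have h1 := ev_sb s12 v12 (fun j m => by
    fin_cases j <;> simp [s12, lin, v12, t5, sub_eq_add_neg]) p
  have h2 := ev_sb s13 v13 (fun j m => by fin_cases j <;> simp [s13, lin, v13, t5]) p
  have h3 := ev_sb (s12.comp s13) v231 (fun j m => by
    fin_cases j <;> simp [s12, s13, lin, v231, t5, sub_eq_add_neg]) p
  have h4 := ev_sb (s13.comp s12) v312 (fun j m => by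
    fin_cases j <;> simp [s12, s13, lin, v312, t5, sub_eq_add_neg]) p
  have h5 := ev_sb (s12.comp (s13.comp s12)) v23 (fun j m => by
    fin_cases j <;> simp [s12, s13, lin, v23, t5, sub_eq_add_neg]) p
  simp only [AlgHom.comp_apply] at h3 h4 h5
  rw [sym6, h5, h4, h3, h1, h2]
  simp only [sy, ev_ap]
  ring

/-! ## zero test and degrees -/

def prG (a : GV) : ℕ := t5 (t5 2 3 5 7 11) (t5 3 13 17 19 23) (t5 5 17 29 31 37)
  (t5 7 19 31 41 43) (t5 11 23 37 43 47) a.1 a.2

theorem dot_comm (j k : Fin 5) : dotP j k = dotP k j :=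
  Finset.sum_congr rfl fun m _ => by ring

theorem ztG (p : Po GV) (h : zt prG p = true) : ev gG p = 0 := by
  refine ev_zt prG (by decide +kernel) gG (fun a b hab => ?_) p h
  have : ∀ a b : GV, prG a = prG b → a = b ∨ a = b.swap := by decide +kernel
  rcases this a b hab with rfl | rfl
  · rfl
  · exact dot_comm _ _

theorem deg_X (j : Fin 5) (m : Ix) : Deg (if 3 ≤ j then 1 else 0) (X (j, m)) :=
  MvPolynomial.isWeightedHomogeneous_X ℂ (fun i : Fin 5 × Ix => if 3 ≤ i.1 then (1 : ℕ) else 0)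
    (j, m)

theorem deg_C {n : ℕ} {S : P20} (a : ℂ) (h : Deg n S) : Deg n (C a * S) := by
  have := (MvPolynomial.isWeightedHomogeneous_C
    (fun i : Fin 5 × Ix => if 3 ≤ i.1 then (1 : ℕ) else 0) a).mul h
  rwa [zero_add] at this

theorem deg_ev {α : Type} (g : α → P20) (wt : α → ℕ) (hg : ∀ a, Deg (wt a) (g a)) (n : ℕ)
    (p : Po α) (h : dg wt n p = true) : Deg n (ev g p) :=
  ev_dg g Deg (MvPolynomial.isWeightedHomogeneous_one _ _) (fun _ _ _ _ h1 h2 => h1.mul h2)
    (fun n => MvPolynomial.isWeightedHomogeneous_zero _ _ n) (fun _ _ _ h1 h2 => h1.add h2)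
    (fun n c x h => by simpa using deg_C (c : ℂ) h) wt hg n p h

def w5 : Fin 5 → ℕ := t5 0 0 0 1 1
theorem w5_eq (j : Fin 5) : w5 j = if 3 ≤ j then 1 else 0 := by revert j; decide
def wG (a : GV) : ℕ := Nat.add (w5 a.1) (w5 a.2)

theorem deg_dot (j k : Fin 5) : Deg (w5 j + w5 k) (dotP j k) := by
  rw [w5_eq, w5_eq]
  refine MvPolynomial.IsWeightedHomogeneous.sum _ _ _ fun m _ => ?_
  exact (deg_C _ (deg_X j m)).mul (deg_X k m)

theorem degG (n : ℕ) (p : Po GV) (h : dg wG n p = true) : Deg n (ev gG p) :=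
  deg_ev gG wG (fun a => deg_dot a.1 a.2) n p h

end

end Vale.Agent.P352X.RS.Alg
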